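import Vale.Agent.P221X.Base.Defs
import Vale.Agent.P221X.NM.Defs

/-!
# P221X: the injective module `Q / Σ⁻¹ A` of an Ore domain
-/

set_option linter.all false

noncomputable section

namespace Vale.Agent.P221X.NC

open MulOpposite
open scoped nonZeroDivisors

universe w

/-- A domain with a ring of left fractions, an Ore set `S`, such that every right ideal is
principal up to `S`-torsion. -/
structure Ctx (A : Type w) [Ring A] where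
  Q : Type w
  [dr : DivisionRing Q]
  ι : A →+* Q
  inj : Function.Injective ι
  frac : ∀ q : Q, ∃ a b, a ≠ 0 ∧ q = (ι a)⁻¹ * ι b
  S : Submonoid A
  ne : ∀ s ∈ S, s ≠ 0
  oS : ∀ s ∈ S, ∀ x, ∃ t ∈ S, ∃ y, t * x = y * s
  pr : ∀ J : Ideal Aᵐᵒᵖ, J ≠ ⊥ → ∃ π ∈ J, π ≠ 0 ∧ ∀ x ∈ J, ∃ s ∈ S, ∃ r, op s * x = r * π

attribute [instance] Ctx.dr

variable {A : Type w} [Ring A]

theorem exists_frac [NoZeroDivisors A] [Nontrivial A]
    (h : ∀ s : A, s ≠ 0 → ∀ x, ∃ t, t ≠ 0 ∧ ∃ y, t * x = y * s) :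
    ∃ (Q : Type w) (_ : DivisionRing Q) (ι : A →+* Q), Function.Injective ι ∧
      ∀ q : Q, ∃ a b, a ≠ 0 ∧ q = (ι a)⁻¹ * ι b := by
  obtain ⟨_⟩ := (OreLocalization.nonempty_oreSet_iff_of_noZeroDivisors (S := A⁰)).2 fun r s =>
    have ⟨t, a, y, b⟩ := h s (nonZeroDivisors.coe_ne_zero s) r
    ⟨y, ⟨t, mem_nonZeroDivisors_of_ne_zero a⟩, b⟩
  have i : Function.Injective (OreLocalization.numeratorRingHom (S := A⁰)) :=
    OreLocalization.numeratorHom_inj inf_le_left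
  refine ⟨_, inferInstance, _, i, fun q => ?_⟩
  induction q with | _ b a =>
  refine ⟨a, b, nonZeroDivisors.coe_ne_zero a, (eq_inv_mul_iff_mul_eq₀
    ((map_ne_zero_iff _ i).2 (nonZeroDivisors.coe_ne_zero a))).2 ?_⟩
  exact OreLocalization.mul_cancel

namespace Ctx

variable (C : Ctx A) {a b c s : A} {q : C.Q}

theorem ι_ne (h : a ≠ 0) : C.ι a ≠ 0 := (map_ne_zero_iff _ C.inj).2 h

include C in
theorem mul_ne (h : a ≠ 0) (h' : b ≠ 0) : a * b ≠ 0 := fun e =>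
  mul_ne_zero (C.ι_ne h) (C.ι_ne h') (by rw [← map_mul, e, map_zero])

include C in
theorem o0 (h : s ≠ 0) (x : A) : ∃ t, t ≠ 0 ∧ ∃ y, t * x = y * s :=
  have ⟨a, b, h1, h2⟩ := C.frac (C.ι x * (C.ι s)⁻¹)
  ⟨a, h1, b, C.inj (by
    rw [map_mul, map_mul, (mul_inv_eq_iff_eq_mul₀ (C.ι_ne h)).1 h2, mul_assoc,
      mul_inv_cancel_left₀ (C.ι_ne h1)])⟩

theorem swap {a' : A} (h : a ≠ 0) (h' : a' ≠ 0) (e : a' * s = c * a) :
    C.ι s * (C.ι a)⁻¹ = (C.ι a')⁻¹ * C.ι c := by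
  rw [mul_inv_eq_iff_eq_mul₀ (C.ι_ne h), mul_assoc, eq_inv_mul_iff_mul_eq₀ (C.ι_ne h'), ← map_mul,
    e, map_mul]

instance : Module Aᵐᵒᵖ C.Q := Module.compHom C.Q (RingHom.op C.ι)

theorem smul_def (a : Aᵐᵒᵖ) (q : C.Q) : a • q = q * C.ι a.unop := rfl

/-- the ring `Σ⁻¹ A` -/
def O : Submodule Aᵐᵒᵖ C.Q where
  carrier := {q | ∃ s ∈ C.S, ∃ r, C.ι s * q = C.ι r}
  add_mem' := fun ⟨s, h1, r, h2⟩ ⟨s', h3, r', h4⟩ =>
    have ⟨t, h5, y, h6⟩ := C.oS s' h3 s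
    ⟨_, mul_mem h5 h1, t * r + y * r', by
      rw [mul_add, map_mul, mul_assoc, h2, ← map_mul _ t s, h6, map_mul, mul_assoc, h4, map_add,
        map_mul, map_mul]⟩
  zero_mem' := ⟨1, one_mem _, 0, by simp⟩
  smul_mem' := fun c _ ⟨s, h1, r, h2⟩ => ⟨s, h1, r * c.unop, by
    rw [smul_def, ← mul_assoc, h2, map_mul]⟩

theorem left_mem (a : A) : q ∈ C.O → C.ι a * q ∈ C.O := fun ⟨s, h1, r, h2⟩ =>
  have ⟨t, h5, y, h6⟩ := C.oS s h1 a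
  ⟨t, h5, y * r, by rw [← mul_assoc, ← map_mul, h6, map_mul, mul_assoc, h2, map_mul]⟩

theorem of_right (hs : s ∈ C.S) : q * C.ι s ∈ C.O → q ∈ C.O := fun ⟨t, h1, r, h2⟩ =>
  have ⟨t', h5, y, h6⟩ := C.oS s hs r
  ⟨_, mul_mem h5 h1, y, mul_right_cancel₀ (C.ι_ne (C.ne s hs)) (by
    rw [map_mul, mul_assoc, mul_assoc, h2, ← map_mul, h6, map_mul])⟩

theorem ι_mem (a : A) : C.ι a ∈ C.O := ⟨1, one_mem _, a, by simp⟩

/-- the module `Q / Σ⁻¹ A` -/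
abbrev I : Type w := C.Q ⧸ C.O

/-- the class of `a⁻¹` -/
def inv (a : A) : C.I := C.O.mkQ (C.ι a)⁻¹

theorem smul_inv (a b : A) : op b • C.inv a = C.O.mkQ ((C.ι a)⁻¹ * C.ι b) := rfl

theorem mk_eq_zero : C.O.mkQ q = 0 ↔ q ∈ C.O := Submodule.Quotient.mk_eq_zero _

theorem smul_inv_eq_zero : op b • C.inv a = 0 ↔ ∃ s ∈ C.S, ∃ r, C.ι s * ((C.ι a)⁻¹ * C.ι b) = C.ι r :=
  C.mk_eq_zero

theorem rinj (hs : s ∈ C.S) (x : C.I) (h : op s • x = 0) : x = 0 := by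
  obtain ⟨q, rfl⟩ := C.O.mkQ_surjective x
  exact C.mk_eq_zero.2 (C.of_right hs (C.mk_eq_zero.1 h))

theorem baer : Module.Baer Aᵐᵒᵖ C.I := fun J g => by
  rcases eq_or_ne J ⊥ with rfl | hJ
  · exact ⟨0, fun x hx => by obtain rfl : x = 0 := hx; exact (map_zero g).symm⟩
  obtain ⟨π, h1, h2, h3⟩ := C.pr J hJ
  obtain ⟨q, hq⟩ := C.O.mkQ_surjective (g ⟨π, h1⟩)
  refine ⟨LinearMap.toSpanSingleton _ _ (C.O.mkQ (q * (C.ι π.unop)⁻¹)), fun x hx => ?_⟩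
  obtain ⟨s, hs, r, e⟩ := h3 x hx
  refine sub_eq_zero.1 (C.rinj hs _ ?_)
  rw [smul_sub, ← map_smul g, show op s • (⟨x, hx⟩ : J) = r • ⟨π, h1⟩ from Subtype.ext e, map_smul,
    LinearMap.toSpanSingleton_apply, smul_smul, e, ← smul_smul, ← hq, ← map_smul _ π, smul_def,
    inv_mul_cancel_right₀ (C.ι_ne ((unop_ne_zero_iff _).2 h2)), sub_self]

theorem gen (x : C.I) : ∃ a b : A, a ≠ 0 ∧ x = op b • C.inv a := by
  obtain ⟨q, rfl⟩ := C.O.mkQ_surjective x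
  obtain ⟨a, b, h, rfl⟩ := C.frac q
  exact ⟨a, b, h, rfl⟩

/-- left multiplication -/
def L (a : A) : C.I →ₗ[Aᵐᵒᵖ] C.I :=
  C.O.mapQ C.O ⟨⟨(C.ι a * ·), mul_add _⟩, fun _ _ => (mul_assoc _ _ _).symm⟩ fun _ => C.left_mem a

theorem L_mk (a : A) (q : C.Q) : C.L a (C.O.mkQ q) = C.O.mkQ (C.ι a * q) := rfl

/-- the data for the non-membership theorem -/
def oreData : NM.OreData A where
  I := C.I
  baer := C.baer
  Sig := C.S
  sig_ne := C.ne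
  L := C.L
  L_one x := by obtain ⟨q, rfl⟩ := C.O.mkQ_surjective x; rw [L_mk, map_one, one_mul]
  L_mul s _ t _ x := by obtain ⟨q, rfl⟩ := C.O.mkQ_surjective x; simp only [L_mk, map_mul, mul_assoc]
  inv := C.inv
  inv_self a h := C.smul_inv_eq_zero.2 ⟨1, one_mem _, 1, by simp [C.ι_ne h]⟩
  L_inv s _ a a' c h h' e := congrArg C.O.mkQ (C.swap h h' e)
  gen x := have ⟨a, b, h, e⟩ := C.gen x
    ⟨1, one_mem _, a, b, h, by rw [← e]; obtain ⟨q, rfl⟩ := C.O.mkQ_surjective x; rw [L_mk, map_one, one_mul]⟩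
  ker a γ h e :=
    have ⟨s, h1, r, h2⟩ := C.smul_inv_eq_zero.1 e
    have ⟨t, h3, y, h4⟩ := C.o0 h s
    ⟨s, h1, t, y, r, h3, h4, C.inj (by
      rw [map_mul, map_mul, ← h2, ← mul_assoc _ (C.ι a)⁻¹, C.swap h h3 h4, mul_assoc,
        mul_inv_cancel_left₀ (C.ι_ne h3)])⟩
  ore s _ a b h h' :=
    have ⟨t, h3, y, h4⟩ := C.o0 h (b * s)
    ⟨t * b, y, t, C.mul_ne h3 h', mul_assoc t b s ▸ h4, rfl⟩
  sigOre := C.oS
  rinj s := C.rinj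
  rsurj s hs x := by
    obtain ⟨q, rfl⟩ := C.O.mkQ_surjective x
    exact ⟨C.O.mkQ (q * (C.ι s)⁻¹), congrArg C.O.mkQ (inv_mul_cancel_right₀ (C.ι_ne (C.ne s hs)) q)⟩

theorem inv_zero_of {r x : A} (h : a ≠ 0) (hs : s ∈ C.S) (e : r * s = a * x) : op r • C.inv a = 0 :=
  (C.smul_inv a r).trans <| C.mk_eq_zero.2 (C.of_right hs (by
    rw [mul_assoc, ← map_mul, e, map_mul, inv_mul_cancel_left₀ (C.ι_ne h)]
    exact C.ι_mem x))

theorem of_inv_eq_zero (h : a ≠ 0) (e : C.inv a = 0) : ∃ s ∈ C.S, ∃ r, s = r * a :=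
  have ⟨s, h1, r, h2⟩ := C.mk_eq_zero.1 e
  ⟨s, h1, r, C.inj (by rw [map_mul, ← h2, inv_mul_cancel_right₀ (C.ι_ne h)])⟩

end Ctx

/-- the index system -/
def Ctx.injD {A : Type} [Ring A] (C : Ctx A) : InjD A where
  I := C.I
  inj := C.baer.injective
  Idx := {x : A × A // x.1 ∈ C.S ∧ x.2 ≠ 0}
  c x := x.1.2
  i x := C.inv (x.1.2 * x.1.1)
  c_reg x r e := by_contra fun h => C.mul_ne x.2.2 h e
  i_c x := C.smul_inv_eq_zero.2 ⟨_, x.2.1, 1, by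
    rw [map_mul, mul_inv_rev, inv_mul_cancel_right₀ (C.ι_ne x.2.2),
      mul_inv_cancel₀ (C.ι_ne (C.ne _ x.2.1)), map_one]⟩
  Arr x y a b := y.1.1 = a * x.1.1 ∧ y.1.2 * a = b * x.1.2
  arr_c h := h.2
  arr_i {x y a b} h := (C.smul_inv _ b).trans <| congrArg C.O.mkQ (by
    rw [← C.swap (s := 1) (C.mul_ne x.2.2 (C.ne _ x.2.1))
      (C.mul_ne y.2.2 (C.ne _ y.2.1)) (by rw [mul_one, h.1, ← mul_assoc, h.2, mul_assoc]),
      map_one, one_mul])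
  arr_refl x := ⟨by simp, by simp⟩
  arr_trans h h' := ⟨by rw [h'.1, h.1, mul_assoc], by
    rw [← mul_assoc, h'.2, mul_assoc, h.2, mul_assoc]⟩
  directed x y :=
    have ⟨t, h1, a', h2⟩ := C.oS _ y.2.1 x.1.1
    have ⟨d, h3, b, h4⟩ := C.o0 x.2.2 t
    have ⟨d', h5, b', h6⟩ := C.o0 y.2.2 (d * a')
    ⟨⟨(t * x.1.1, d' * d), mul_mem h1 x.2.1, C.mul_ne h5 h3⟩, t, d' * b, a', b',
      ⟨rfl, by simp only [mul_assoc, h4]⟩, h2, by simp only [mul_assoc, h6]⟩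
  exhaust m := have ⟨a, b, h, e⟩ := C.gen m
    ⟨⟨(1, a), one_mem _, h⟩, b, by simpa using e⟩
  kernel x r e :=
    have ⟨t, h1, γ, h2⟩ := C.smul_inv_eq_zero.1 e
    have ⟨t', h3, a, h4⟩ := C.oS _ x.2.1 t
    have ⟨d, h5, b, h6⟩ := C.o0 x.2.2 a
    ⟨⟨(t' * t, d), mul_mem h3 h1, h5⟩, a, b, t' * γ, ⟨h4, h6⟩, C.inj (by
      rw [map_mul, map_mul, map_mul, ← h2, ← mul_assoc (C.ι t'), ← map_mul _ t',
        ← mul_assoc _ _ (C.ι r),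
        C.swap (c := b) (C.mul_ne x.2.2 (C.ne _ x.2.1)) h5 (by rw [h4, ← mul_assoc, h6, mul_assoc]),
        mul_assoc, mul_inv_cancel_left₀ (C.ι_ne h5)])⟩

end Vale.Agent.P221X.NC
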