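import Vale.Agent.P221X.NC.SB
import Vale.Agent.P221X.NC.Ore

/-!
# P221X: row NC
-/

set_option linter.all false

noncomputable section

namespace Vale.Agent.P221X

open MvPolynomial MulOpposite NC

variable {F : Type} [Field F] {ι : Type} {wt : ι → ℕ} {A : Type} [Ring A] [Algebra F A]

namespace FRing

variable (Φ : FRing F ι wt A) {a b s : A} {v w : ℕ}

/-- the elements whose symbol is not in the prime ideal `P` -/
def Sig (P : Ideal (MvPolynomial ι F)) [hP : P.IsPrime] : Submonoid A where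
  carrier := {s | ∃ w, s ∈ Φ.fil w ∧ Φ.sym w s ∉ P}
  mul_mem' := fun ⟨v, a, b⟩ ⟨w, c, d⟩ => ⟨v + w, Φ.mul_mem a c, by
    rw [Φ.sym_mul a c]; exact fun e => (hP.mem_or_mem e).elim b d⟩
  one_mem' := ⟨0, Φ.fil_zero 1, Φ.sym_one ▸ (Ideal.ne_top_iff_one P).1 hP.ne_top⟩

variable {P : Ideal (MvPolynomial ι F)} [hP : P.IsPrime]

theorem sig_ne (h : s ∈ Φ.Sig P) : s ≠ 0 :=
  have ⟨_, _, b⟩ := h
  Φ.ne_zero_of_sym fun e => b (e ▸ P.zero_mem)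

theorem sig_bot : s ∈ Φ.Sig ⊥ ↔ s ≠ 0 := ⟨Φ.sig_ne, Φ.exists_deg⟩

theorem mem_sig (h : s ∈ Φ.fil w) (h0 : Φ.sym w s ≠ 0) : s ∈ Φ.Sig P ↔ Φ.sym w s ∉ P :=
  ⟨fun ⟨_, a, b⟩ => Φ.deg_unique a (fun e => b (e ▸ P.zero_mem)) h h0 ▸ b, fun e => ⟨w, h, e⟩⟩

theorem sig_of_mul (h : a * b ∈ Φ.Sig P) : a ∈ Φ.Sig P ∧ b ∈ Φ.Sig P := by
  obtain ⟨v, h1, h2⟩ := Φ.exists_deg (left_ne_zero_of_mul (Φ.sig_ne h))
  obtain ⟨w, h3, h4⟩ := Φ.exists_deg (right_ne_zero_of_mul (Φ.sig_ne h))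
  rw [Φ.mem_sig (Φ.mul_mem h1 h3) (Φ.sym_mul h1 h3 ▸ mul_ne_zero h2 h4), Φ.sym_mul h1 h3] at h
  exact ⟨⟨v, h1, fun e => h (P.mul_mem_right _ e)⟩, w, h3, fun e => h (P.mul_mem_left _ e)⟩

include Φ in
theorem noZeroDivisors : NoZeroDivisors A := ⟨Φ.dom _ _⟩

include Φ in
theorem nontrivial : Nontrivial A := ⟨1, 0, Φ.sig_ne (P := ⊥) (one_mem _)⟩

variable [Finite ι]

theorem ore_left (hs : s ∈ Φ.Sig P) (x : A) : ∃ t ∈ Φ.Sig P, ∃ y, t * x = y * s := by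
  obtain ⟨δ, h1, h2⟩ := hs
  obtain ⟨k, t, h3, h4, h5⟩ := Φ.tors (L := Submodule.span A {s}) le_top h1 (fun w a _ _ =>
    Ideal.mul_mem_right _ _ (Ideal.subset_span ⟨δ, s, Submodule.mem_span_singleton_self s, h1, rfl⟩))
    (Submodule.mem_top (x := x))
  obtain ⟨y, hy⟩ := Submodule.mem_span_singleton.1 h5
  exact ⟨t, ⟨_, h3, h4 ▸ fun e => h2 (hP.mem_of_pow_mem k e)⟩, y, hy.symm⟩

theorem ore_right (hs : s ∈ Φ.Sig P) (x : A) : ∃ t ∈ Φ.Sig P, ∃ y, x * t = s * y :=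
  have ⟨t, a, y, b⟩ := Φ.opp.ore_left (P := P) (s := op s) hs (op x)
  ⟨t.unop, a, y.unop, congrArg unop b⟩

instance (j : ι) : (Ideal.span {(X j : MvPolynomial ι F)}).IsPrime :=
  (Ideal.span_singleton_prime (X_ne_zero j)).2 X_prime

theorem principal (j : ι) (J : Ideal A) (hJ : J ≠ ⊥) : ∃ π ∈ J, π ≠ 0 ∧
    ∀ x ∈ J, ∃ s ∈ Φ.Sig (Ideal.span {X j}), ∃ r, s * x = r * π := by
  classical
  have h : ∃ n, ∃ π ∈ J, ∃ w ν, π ∈ Φ.fil w ∧ ¬ X j ∣ ν ∧ Φ.sym w π = X j ^ n * ν := by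
    obtain ⟨π, h1, h2⟩ := J.exists_mem_ne_zero_of_ne_bot hJ
    obtain ⟨w, h3, h4⟩ := Φ.exists_deg h2
    obtain ⟨n, ν, h5⟩ := WfDvdMonoid.max_power_factor h4 (X_prime (i := j)).irreducible
    exact ⟨n, π, h1, w, ν, h3, h5⟩
  obtain ⟨π, h1, w, ν, h2, h3, h4⟩ := Nat.find_spec h
  have h0 : ν ≠ 0 := fun e => h3 (e ▸ dvd_zero _)
  obtain ⟨s, s1, s2⟩ := Φ.sym_surj (w := w - Nat.find h * wt j) (φ := ν) fun d hd => by
    have := Φ.sym_hom h2 (d := Finsupp.single j (Nat.find h) + d) (by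
      rwa [h4, X_pow_eq_monomial, coeff_monomial_mul, one_mul])
    rw [map_add, Finsupp.weight_single, smul_eq_mul] at this
    omega
  refine ⟨π, h1, Φ.ne_zero_of_sym (h4 ▸ mul_ne_zero (pow_ne_zero _ (X_ne_zero j)) h0),
    fun x hx => ?_⟩
  obtain ⟨k, t, h5, h6, h7⟩ := Φ.tors (L := Submodule.span A {π})
    ((Submodule.span_singleton_le_iff_mem _ _).2 h1) s1 (fun v a ha hv => by
      rcases eq_or_ne (Φ.sym v a) 0 with e | e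
      · simp [e]
      obtain ⟨n, μ, h5⟩ := WfDvdMonoid.max_power_factor e (X_prime (i := j)).irreducible
      obtain ⟨m, rfl⟩ := Nat.exists_eq_add_of_le (Nat.find_min' h ⟨a, ha, v, μ, hv, h5⟩)
      rw [s2, h5.2, pow_add, ← mul_assoc, ← mul_assoc, mul_comm ν, ← h4, mul_assoc]
      exact Ideal.mul_mem_right _ _
        (Ideal.subset_span ⟨w, π, Submodule.mem_span_singleton_self π, h2, rfl⟩)) hx
  obtain ⟨y, hy⟩ := Submodule.mem_span_singleton.1 h7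
  exact ⟨t, ⟨_, h5, by
    rw [h6, s2, Ideal.mem_span_singleton]; exact fun e => h3 (X_prime.dvd_of_dvd_pow e)⟩, y, hy.symm⟩

theorem exists_ctx (j : ι) : ∃ C : Ctx A, C.S = Φ.Sig (Ideal.span {X j}) := by
  have := Φ.noZeroDivisors
  have := Φ.nontrivial
  obtain ⟨Q, _, i, h1, h2⟩ := exists_frac fun s hs x =>
    (Φ.ore_left (Φ.sig_bot.2 hs) x).imp fun _ h => ⟨Φ.sig_bot.1 h.1, h.2⟩
  exact ⟨⟨Q, i, h1, h2, _, fun _ => Φ.sig_ne, fun _ => Φ.ore_left, fun J hJ =>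
    have ⟨π, a, b, c⟩ := Φ.opp.principal j J hJ
    ⟨π, a, b, fun x hx => have ⟨s, d, e⟩ := c x hx; ⟨s.unop, d, e⟩⟩⟩, rfl⟩

end FRing

namespace RD

variable {p : ℕ} {D : GD p F} {R : Type} [Ring R] [Algebra F R] (S : RD D R) {θ s r : R}

/-- the elements whose symbol is not divisible by `h` -/
abbrev Sig : Submonoid R := S.toFRing.Sig (Ideal.span {X 3})

theorem u_sig : S.sc PowerSeries.X ∈ S.Sig :=
  ⟨4, S.u_mem, by rw [S.u_sym, Ideal.mem_span_singleton, X_dvd_X]; decide⟩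

theorem theta_ne (h : S.sym 3 θ = X 3) : θ ≠ 0 := S.ne_zero_of_sym (h ▸ X_ne_zero 3)

theorem theta_not_sig (h : θ ∈ S.fil 3) (h' : S.sym 3 θ = X 3) : θ ∉ S.Sig := fun e =>
  (S.mem_sig h (h' ▸ X_ne_zero 3)).1 e (h' ▸ Ideal.mem_span_singleton_self _)

theorem notL_of_sig (h : θ ∈ S.fil 3) (h' : S.sym 3 θ = X 3) (hs : s ∈ S.Sig) : S.NotL θ s :=
  fun a _ e => S.theta_not_sig h h' (S.sig_of_mul (e ▸ mul_mem (pow_mem S.u_sig a) hs)).2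

theorem ctx_spec (C : Ctx R) (hC : C.S = S.Sig) (h : θ ∈ S.fil 3) (h' : S.sym 3 θ = X 3) :
    C.inv θ ≠ 0 ∧ ∀ r : R, MulOpposite.op r • C.inv θ ≠ 0 → S.NotR θ r :=
  ⟨fun e => have ⟨_, a, _, b⟩ := C.of_inv_eq_zero (S.theta_ne h') e
    S.theta_not_sig h h' (S.sig_of_mul (b ▸ hC ▸ a)).2,
  fun _ e a _ b => e (C.inv_zero_of (S.theta_ne h') (hC ▸ pow_mem S.u_sig a) b)⟩

/-- **Row NC** -/
theorem rowNC : RowNC S := fun θ h h' => by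
  obtain ⟨C, hC⟩ := S.exists_ctx 3
  obtain ⟨h1, h2⟩ := S.ctx_spec C hC h h'
  refine ⟨C.injD, ⟨(1, θ), one_mem _, S.theta_ne h'⟩, rfl, fun e => h1 (mul_one θ ▸ e),
    fun y s b e => S.notL_of_sig h h' ?_, fun r e => h2 r fun c => e (by rwa [← mul_one θ] at c)⟩
  simpa [e.1, hC] using y.2.1

/-- **The Ore data of `R`** -/
theorem exists_oreData : ∃ O : NM.OreData R, O.Sig = S.Sig ∧
    ∀ θ, θ ∈ S.fil 3 → S.sym 3 θ = X 3 → O.inv θ ≠ 0 ∧ (∀ s ∈ O.Sig, S.NotL θ s) ∧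
      ∀ r : R, MulOpposite.op r • O.inv θ ≠ 0 → S.NotR θ r :=
  have ⟨C, hC⟩ := S.exists_ctx 3
  ⟨C.oreData, hC, fun _ h h' => ⟨(S.ctx_spec C hC h h').1,
    fun _ hs => S.notL_of_sig h h' (hC.le hs), (S.ctx_spec C hC h h').2⟩⟩

end RD

end Vale.Agent.P221X
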