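import Vale.Agent.P221X.Base.Spec

/-!
# P221X: standard bases in complete filtered rings (row SB) and the torsion lemma
-/

set_option linter.all false

noncomputable section

namespace Vale.Agent.P221X.FRing

open MvPolynomial Finset

variable {F : Type} [Field F] {ι : Type} {wt : ι → ℕ} {A : Type} [Ring A] [Algebra F A]
  (Φ : FRing F ι wt A) {a b : A} {v w : ℕ}

theorem exists_deg (ha : a ≠ 0) : ∃ w, a ∈ Φ.fil w ∧ Φ.sym w a ≠ 0 := by
  by_contra! h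
  exact ha (Φ.sep a fun w => w.rec (Φ.fil_zero a) fun w ih => (Φ.sym_eq_zero ih).1 (h w ih))

theorem ne_zero_of_sym (h : Φ.sym w a ≠ 0) : a ≠ 0 := fun e => h (by simp [e])

include Φ in
theorem dom (a b : A) (h : a * b = 0) : a = 0 ∨ b = 0 := by
  by_contra! e
  obtain ⟨v, h1, h2⟩ := Φ.exists_deg e.1
  obtain ⟨w, h3, h4⟩ := Φ.exists_deg e.2
  exact mul_ne_zero h2 h4 (by rw [← Φ.sym_mul h1 h3, h, map_zero])

theorem deg_unique (h1 : a ∈ Φ.fil v) (h2 : Φ.sym v a ≠ 0) (h3 : a ∈ Φ.fil w)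
    (h4 : Φ.sym w a ≠ 0) : v = w :=
  le_antisymm (not_lt.1 fun e => h4 ((Φ.sym_eq_zero h3).2 (Φ.anti e h1)))
    (not_lt.1 fun e => h2 ((Φ.sym_eq_zero h1).2 (Φ.anti e h3)))

theorem sub_mem_succ (ha : a ∈ Φ.fil w) (hb : b ∈ Φ.fil w) (h : Φ.sym w a = Φ.sym w b) :
    a - b ∈ Φ.fil (w + 1) := (Φ.sym_eq_zero (sub_mem ha hb)).1 (by rw [map_sub, h, sub_self])

theorem sym_eq (ha : a ∈ Φ.fil w) (h : a - b ∈ Φ.fil (w + 1)) :
    b ∈ Φ.fil w ∧ Φ.sym w b = Φ.sym w a :=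
  have h' := Φ.anti w.le_succ h
  ⟨by simpa using sub_mem ha h', by
    rw [eq_comm, ← sub_eq_zero, ← map_sub]; exact (Φ.sym_eq_zero h').2 h⟩

theorem mul_left (b : A) (ha : a ∈ Φ.fil w) : b * a ∈ Φ.fil w := by
  simpa using Φ.mul_mem (Φ.fil_zero b) ha

theorem mul_right (b : A) (ha : a ∈ Φ.fil w) : a * b ∈ Φ.fil w := Φ.mul_mem ha (Φ.fil_zero b)

theorem pow_sym (ha : a ∈ Φ.fil w) (n : ℕ) :
    a ^ n ∈ Φ.fil (n * w) ∧ Φ.sym (n * w) (a ^ n) = Φ.sym w a ^ n := by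
  induction n with
  | zero => simpa using ⟨Φ.fil_zero 1, Φ.sym_one⟩
  | succ n ih =>
    rw [pow_succ, pow_succ, Nat.succ_mul, Φ.sym_mul ih.1 ha, ih.2]
    exact ⟨Φ.mul_mem ih.1 ha, rfl⟩

theorem lim (g : ℕ → ℕ) (hg : Monotone g) (d : ℕ) (hd : ∀ n, n ≤ g (n + d)) (s : ℕ → A)
    (h : ∀ n, s (n + 1) - s n ∈ Φ.fil (g n)) : ∃ a, ∀ n, a - s n ∈ Φ.fil (g n) := by
  obtain ⟨a, ha⟩ := Φ.complete (fun n => s (n + d)) fun n =>
    Φ.anti (hd n) (by simpa [add_right_comm] using h (n + d))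
  refine ⟨a, fun n => ?_⟩
  have : ∀ m, s (n + m) - s n ∈ Φ.fil (g n) := fun m => m.rec (by simp) fun m ih => by
    simpa [add_assoc] using add_mem (Φ.anti (hg (n.le_add_right m)) (h (n + m))) ih
  simpa [add_assoc] using add_mem (Φ.anti (Nat.le_add_left _ n) (ha (n + g n))) (this (g n + d))

theorem lift_mul (ha : a ∈ Φ.fil v) (ψ : MvPolynomial ι F) (w : ℕ) : ∃ r ∈ Φ.fil (w - v),
    Φ.sym w (r * a) = weightedHomogeneousComponent wt w (ψ * Φ.sym v a) := by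
  letI := weightedGradedAlgebra (σ := ι) F wt
  have := DirectSum.coe_decompose_mul_of_right_mem (weightedHomogeneousSubmodule F wt) (a := ψ)
    (b := Φ.sym v a) (i := v) w (Φ.sym_hom ha)
  rw [← weightedDecomposition.decompose'_apply]
  erw [this]
  split_ifs with h
  · obtain ⟨r, r1, r2⟩ := Φ.sym_surj (weightedHomogeneousComponent_isWeightedHomogeneous (w - v) ψ)
    exact ⟨r, r1, by
      erw [weightedDecomposition.decompose'_apply]
      rw [← r2, ← Φ.sym_mul r1 ha, Nat.sub_add_cancel h]⟩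
  · exact ⟨0, zero_mem _, by simp⟩

theorem mul_mem' {r : A} (hr : r ∈ Φ.fil (w - v)) (ha : a ∈ Φ.fil v) : r * a ∈ Φ.fil w :=
  Φ.anti le_tsub_add (Φ.mul_mem hr ha)

/-- the symbols of a left ideal -/
def sy (I : Submodule A A) : Set (MvPolynomial ι F) := {φ | ∃ w, ∃ a ∈ I, a ∈ Φ.fil w ∧ Φ.sym w a = φ}

theorem lift_span (I : Submodule A A) {φ : MvPolynomial ι F} (h : φ ∈ Ideal.span (Φ.sy I)) (w : ℕ) :
    ∃ x ∈ I, x ∈ Φ.fil w ∧ Φ.sym w x = weightedHomogeneousComponent wt w φ := by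
  have : ∀ ψ, ∃ x ∈ I, x ∈ Φ.fil w ∧ Φ.sym w x = weightedHomogeneousComponent wt w (ψ * φ) := by
    induction h using Submodule.span_induction with
    | mem _ h =>
      obtain ⟨v, a, a1, a2, rfl⟩ := h
      exact fun ψ => have ⟨r, r1, r2⟩ := Φ.lift_mul a2 ψ w
        ⟨_, I.smul_mem r a1, Φ.mul_mem' r1 a2, r2⟩
    | zero => exact fun _ => ⟨0, zero_mem _, zero_mem _, by simp⟩
    | add _ _ _ _ h1 h2 =>
      exact fun ψ => have ⟨x, a, b, c⟩ := h1 ψ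
        have ⟨y, a', b', c'⟩ := h2 ψ
        ⟨_, add_mem a a', add_mem b b', by rw [map_add, c, c', mul_add, map_add]⟩
    | smul c _ _ h => exact fun ψ => by simpa [mul_assoc] using h (ψ * c)
  simpa using this 1

variable [Finite ι]

theorem basis' (I : Submodule A A) : ∃ (n : ℕ) (l : Fin n → A) (d : Fin n → ℕ),
    (∀ i, l i ∈ I ∧ l i ∈ Φ.fil (d i)) ∧ ∀ (w : ℕ) (a : A), (∀ v, ∃ b ∈ I, a - b ∈ Φ.fil v) →
      a ∈ Φ.fil w → ∃ r : Fin n → A, (∀ i, r i ∈ Φ.fil (w - d i)) ∧ a = ∑ i, r i * l i := by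
  obtain ⟨t, t1, t2⟩ := (Submodule.fg_span_iff_fg_span_finset_subset (Φ.sy I)).1
    (Ideal.fg_of_isNoetherianRing (Ideal.span (Φ.sy I)))
  choose d l l1 l2 l3 using fun i => t1 (t.equivFin.symm i).2
  refine ⟨_, l, d, fun i => ⟨l1 i, l2 i⟩, fun w a a1 a2 => ?_⟩
  have step : ∀ (w : ℕ) (a : A), (∀ v, ∃ b ∈ I, a - b ∈ Φ.fil v) → a ∈ Φ.fil w →
      ∃ r : _ → A, (∀ i, r i ∈ Φ.fil (w - d i)) ∧ a - ∑ i, r i * l i ∈ Φ.fil (w + 1) := by
    intro w a a1 a2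
    obtain ⟨b, b1, b2⟩ := a1 (w + 1)
    obtain ⟨ψ, hψ⟩ := (Submodule.mem_span_range_iff_exists_fun _).1 (show Φ.sym w a ∈
        Submodule.span (MvPolynomial ι F) (Set.range fun i => Φ.sym (d i) (l i)) by
      refine Submodule.span_mono (fun φ hφ => Exists.intro (t.equivFin ⟨φ, hφ⟩) (by simp [l3]))
        (t2.le (Submodule.subset_span ⟨w, b, b1, Φ.sym_eq a2 b2⟩)))
    choose r r1 r2 using fun i => Φ.lift_mul (l2 i) (ψ i) w
    refine ⟨r, r1, Φ.sub_mem_succ a2 (sum_mem fun i _ => Φ.mul_mem' (r1 i) (l2 i)) ?_⟩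
    rw [← (Φ.sym_hom a2).weightedHomogeneousComponent_same, ← hψ]
    simp [r2]
  choose! ρ h1 h2 using step
  let s : ℕ → Fin t.card → A := fun n => n.rec 0 fun n s => s + ρ (w + n) (a - ∑ i, s i * l i)
  have h3 : ∀ n v, ∃ b ∈ I, a - ∑ i, s n i * l i - b ∈ Φ.fil v := fun n v =>
    have ⟨b, b1, b2⟩ := a1 v
    ⟨_, sub_mem b1 (sum_mem (t := univ) fun i _ => I.smul_mem (s n i) (l1 i)), by simpa using b2⟩
  have h4 : ∀ n, a - ∑ i, s n i * l i ∈ Φ.fil (w + n) := fun n => n.rec (by simpa [s]) fun n ih => by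
    simpa [s, add_mul, sum_add_distrib, sub_sub, add_assoc] using h2 _ _ (h3 n) ih
  choose r hr using fun i => Φ.lim (fun n => w + n - d i)
    (fun _ _ e => Nat.sub_le_sub_right (Nat.add_le_add_left e w) _) (d i) (fun n => by omega)
    (fun n => s n i) fun n => by simpa [s] using h1 _ _ (h3 n) (h4 n) i
  refine ⟨r, fun i => by simpa [s] using hr i 0, sub_eq_zero.1 (Φ.sep _ fun n => ?_)⟩
  simpa [sub_mul] using Φ.anti (Nat.le_add_left n w)
    (sub_mem (h4 n) (sum_mem (t := univ) fun i _ => Φ.mul_mem' (hr i n) (l2 i)))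

theorem closed (I : Submodule A A) (a : A) (h : ∀ w, ∃ b ∈ I, a - b ∈ Φ.fil w) : a ∈ I := by
  obtain ⟨n, l, d, h1, h2⟩ := Φ.basis' I
  obtain ⟨r, -, rfl⟩ := h2 0 a h (Φ.fil_zero a)
  exact sum_mem fun i _ => I.smul_mem _ (h1 i).1

theorem basis (I : Submodule A A) : ∃ (n : ℕ) (l : Fin n → A) (d : Fin n → ℕ),
    (∀ i, l i ∈ I ∧ l i ∈ Φ.fil (d i)) ∧ ∀ (w : ℕ) (a : A), a ∈ I → a ∈ Φ.fil w →
      ∃ r : Fin n → A, (∀ i, r i ∈ Φ.fil (w - d i)) ∧ a = ∑ i, r i * l i :=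
  have ⟨n, l, d, h1, h2⟩ := Φ.basis' I
  ⟨n, l, d, h1, fun w a ha => h2 w a fun _ => ⟨a, ha, by simp⟩⟩

theorem codim (I : Submodule A A) (s : Set (MvPolynomial ι F)) (B : Finset (ι →₀ ℕ))
    (hs : s ⊆ Φ.sy I) (hB : ∀ m : ι →₀ ℕ, m ∉ B → ∃ φ ∈ Ideal.span s, monomial m (1 : F) - φ ∈
      Submodule.span F ((fun b => monomial b (1 : F)) '' (B : Set (ι →₀ ℕ)))) :
    ∃ v : B → A, ∀ a : A, ∃ c : B → F, a - ∑ b, c b • v b ∈ I := by
  classical
  choose v v1 v2 using fun b : B => Φ.sym_surj (isWeightedHomogeneous_monomial wt b.1 (1 : F) rfl)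
  let V (w : ℕ) : Submodule F A := Submodule.span F (v '' {b | Finsupp.weight wt b.1 = w})
  have h1 : ∀ w (φ : MvPolynomial ι F), ∃ x ∈ I, ∃ y ∈ V w, x + y ∈ Φ.fil w ∧
      Φ.sym w (x + y) = weightedHomogeneousComponent wt w φ := fun w φ => by
    let U : Submodule F (MvPolynomial ι F) :=
      { carrier := {φ | ∃ x ∈ I, ∃ y ∈ V w, x + y ∈ Φ.fil w ∧
          Φ.sym w (x + y) = weightedHomogeneousComponent wt w φ}
        add_mem' := fun ⟨x, a, y, b, c, d⟩ ⟨x', a', y', b', c', d'⟩ =>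
          ⟨_, add_mem a a', _, add_mem b b', add_add_add_comm x y x' y' ▸ add_mem c c', by
            rw [add_add_add_comm, map_add, d, d', map_add]⟩
        zero_mem' := ⟨0, zero_mem _, 0, zero_mem _, by simp, by simp⟩
        smul_mem' := fun c _ ⟨x, a, y, b, d, e⟩ => ⟨c • x, I.smul_of_tower_mem c a, c • y,
          (V w).smul_mem c b, smul_add c x y ▸ Submodule.smul_mem _ c d, by
            rw [← smul_add, map_smul, e, map_smul]⟩ }
    have h2 : Submodule.span F ((fun b => monomial b (1 : F)) '' (B : Set (ι →₀ ℕ))) ≤ U :=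
      Submodule.span_le.2 fun _ ⟨b, hb, e⟩ => by
        subst e
        by_cases e : Finsupp.weight wt b = w
        · exact ⟨0, zero_mem _, v ⟨b, hb⟩, Submodule.subset_span ⟨_, e, rfl⟩, by simpa [← e] using v1 ⟨b, hb⟩,
            by rw [zero_add, (isWeightedHomogeneous_monomial wt b 1 e).weightedHomogeneousComponent_same,
              ← e, v2 ⟨b, hb⟩]⟩
        · exact ⟨0, zero_mem _, 0, zero_mem _, by simp, by
            rw [(isWeightedHomogeneous_monomial wt b 1 rfl).weightedHomogeneousComponent_ne _ (Ne.symm e)]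
            simp⟩
    change φ ∈ U
    induction φ using MvPolynomial.induction_on' with
    | monomial m c =>
      obtain ⟨φ, a, b⟩ : ∃ φ ∈ Ideal.span s, monomial m (1 : F) - φ ∈
          Submodule.span F ((fun b => monomial b (1 : F)) '' (B : Set (ι →₀ ℕ))) :=
        (em (m ∈ B)).elim (fun e => ⟨0, zero_mem _, Submodule.subset_span ⟨m, e, by simp⟩⟩) (hB m)
      obtain ⟨x, x1, x2, x3⟩ := Φ.lift_span I (Ideal.span_mono hs a) w
      simpa [smul_monomial] using U.smul_mem c (add_mem (h2 b)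
        (⟨x, x1, 0, zero_mem _, by simpa, by simpa⟩ : φ ∈ U))
    | add _ _ h1 h2 => exact add_mem h1 h2
  have h2 : ∀ w, ∀ a ∈ Φ.fil w, ∃ x ∈ I, ∃ y ∈ V w, a - (x + y) ∈ Φ.fil (w + 1) := fun w a ha =>
    have ⟨x, x1, y, y1, c, d⟩ := h1 w (Φ.sym w a)
    ⟨x, x1, y, y1, Φ.sub_mem_succ ha c (by rw [d, (Φ.sym_hom ha).weightedHomogeneousComponent_same])⟩
  refine ⟨v, fun a => ?_⟩
  have h3 : ∀ w, ∃ x ∈ I, ∃ y ∈ Submodule.span F (Set.range v), a - (x + y) ∈ Φ.fil w := fun w =>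
    w.rec ⟨0, zero_mem _, 0, zero_mem _, Φ.fil_zero _⟩ fun w ⟨x, x1, y, y1, c⟩ =>
      have ⟨x', x2, y', y2, c'⟩ := h2 w _ c
      ⟨_, add_mem x1 x2, _, add_mem y1 (Submodule.span_mono (Set.image_subset_range _ _) y2), by
        rwa [add_add_add_comm, ← sub_sub]⟩
  obtain ⟨x, x1, y, y1, c⟩ := h3 (B.sup (Finsupp.weight wt) + 1)
  obtain ⟨e, rfl⟩ := (Submodule.mem_span_range_iff_exists_fun _).1 y1
  refine ⟨e, Φ.closed I _ fun w => ?_⟩
  suffices ∃ b ∈ I, a - ∑ b, e b • v b - b ∈ Φ.fil (B.sup (Finsupp.weight wt) + 1 + w) from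
    this.imp fun _ h => ⟨h.1, Φ.anti (Nat.le_add_left w _) h.2⟩
  induction w with
  | zero => exact ⟨x, x1, by rwa [sub_sub, add_comm _ x]⟩
  | succ w ih =>
    obtain ⟨b, b1, b2⟩ := ih
    obtain ⟨x', x2, y', y2, c'⟩ := h2 _ _ b2
    obtain rfl : y' = 0 := (Submodule.span_eq_bot.2 fun _ e => by
      obtain ⟨b, e, -⟩ := e
      have := le_sup (f := Finsupp.weight wt) b.2
      simp only [Set.mem_setOf_eq] at e
      omega).le y2
    exact ⟨_, add_mem b1 x2, by rwa [add_zero, sub_sub] at c'⟩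

/-- **Row SB** -/
theorem rowSB : RowSB Φ := ⟨Φ.basis, Φ.closed, Φ.codim, Φ.dom⟩

/-- **TORS** -/
theorem tors {L J : Submodule A A} (e : L ≤ J) {s : A} {δ : ℕ} (hs : s ∈ Φ.fil δ)
    (h : ∀ w, ∀ a ∈ J, a ∈ Φ.fil w → Φ.sym δ s * Φ.sym w a ∈ Ideal.span (Φ.sy L)) {x : A}
    (hx : x ∈ J) : ∃ k, ∃ t ∈ Φ.fil (k * δ), Φ.sym (k * δ) t = Φ.sym δ s ^ k ∧ t * x ∈ L := by
  have h1 : ∀ k, ∃ l ∈ L, s ^ k * x - l ∈ Φ.fil (k * δ + k) := fun k =>
    k.rec ⟨0, zero_mem _, by simpa using Φ.fil_zero x⟩ fun k ⟨l, l1, l2⟩ => by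
      obtain ⟨y, y1, y2, y3⟩ := Φ.lift_span L
        (h _ _ (sub_mem (J.smul_mem (s ^ k) hx) (e l1)) l2) (δ + (k * δ + k))
      rw [smul_eq_mul, ← Φ.sym_mul hs l2, (Φ.sym_hom (Φ.mul_mem hs l2)).weightedHomogeneousComponent_same] at y3
      refine ⟨_, add_mem (L.smul_mem s l1) y1, ?_⟩
      convert Φ.sub_mem_succ (Φ.mul_mem hs l2) y2 y3.symm using 1
      · congr 1; simp only [Nat.succ_eq_add_one]; ring
      · rw [pow_succ', smul_eq_mul]; noncomm_ring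
  obtain ⟨n, l, d, h2, h3⟩ := Φ.basis (L ⊔ Submodule.span A {x})
  choose y y1 z z1 y2 using fun i => Submodule.mem_sup.1 (h2 i).1
  choose ρ hρ using fun i => Submodule.mem_span_singleton.1 (z1 i)
  obtain ⟨k, hk⟩ : ∃ k, ∀ i, d i < k := ⟨univ.sup d + 1, fun i => Nat.lt_succ_of_le (le_sup (mem_univ i))⟩
  obtain ⟨m, m1, m2⟩ := h1 k
  obtain ⟨r, r1, r2⟩ := h3 _ _ (sub_mem (Submodule.mem_sup_right (Submodule.smul_mem _ (s ^ k)
    (Submodule.mem_span_singleton_self x))) (Submodule.mem_sup_left m1)) m2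
  have h4 := Φ.sym_eq (Φ.pow_sym hs k).1 (b := s ^ k - ∑ i, r i * ρ i) (by
    simpa using sum_mem fun i _ => Φ.mul_right (ρ i) (Φ.anti (by have := hk i; omega) (r1 i)))
  refine ⟨k, _, h4.1, h4.2.trans (Φ.pow_sym hs k).2, ?_⟩
  convert add_mem m1 (sum_mem (t := univ) fun i _ => L.smul_mem (r i) (y1 i)) using 1
  rw [sub_mul, ← smul_eq_mul, sub_eq_iff_eq_add.1 r2]
  simp [← y2, ← hρ, mul_add, sum_add_distrib, sum_mul, mul_assoc]
  abel

end Vale.Agent.P221X.FRing
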